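import Claimed.Agent.R282.S34.F.Link

/-!
# Row 282, package F: the contracts K-1, K0, K1, K2 of `S34/Contracts`      (architect helper134)

`s34f_exc_interior`, `s34f_J_start`, `s34f_J_end`, `s34f_J_between` : all GLUE, proved here from the direct links of `F/Link` and the schedule calculus (`sc_*`).  No leaf in this file.
-/

set_option autoImplicit false

namespace Claimed.Agent.R282

variable {n : ℕ}

/-! ## roots of a pair of labels -/

/-- the root `a - c` of two signed labels on distinct axes -/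
def labRoot (a c : Lab n) (h : a.1 ≠ c.1) : RootD n := ⟨a.1, c.1, h, a.2, !c.2⟩

theorem s34f_sgnB_not (b : Bool) : sgnB (!b) = - sgnB b := by
  cases b <;> simp [sgnB]

theorem s34f_dot_labRoot (x : Vec n) (a c : Lab n) (h : a.1 ≠ c.1) :
    dot x (labRoot a c h).vec = lv x a - lv x c := by
  rw [sc_dot_vec]
  show sgnB a.2 * x a.1 + sgnB (!c.2) * x c.1 = sgnB a.2 * x a.1 - sgnB c.2 * x c.1
  rw [s34f_sgnB_not]
  ring

/-! ## sums over cross pairs -/

theorem s34f_crossSum_le (P : Finset (Fin n)) (f g : Lab n → Lab n → ℝ)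
    (h : ∀ a c : Lab n, a.1 ∈ P → c.1 ∉ P → f a c ≤ g a c) : crossSum P f ≤ crossSum P g := by
  unfold crossSum
  refine mul_le_mul_of_nonneg_left ?_ (by norm_num)
  refine Finset.sum_le_sum fun a ha => Finset.sum_le_sum fun c hc => ?_
  refine h a c (Finset.mem_product.1 ha).1 ?_
  have := (Finset.mem_product.1 hc).1
  exact Finset.mem_compl.1 this

theorem s34f_crossSum_sub (P : Finset (Fin n)) (f g : Lab n → Lab n → ℝ) :
    crossSum P (fun a c => f a c - g a c) = crossSum P f - crossSum P g := by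
  unfold crossSum
  simp only [Finset.sum_sub_distrib]
  ring

theorem s34f_jTie_nonneg (x : Vec n) (a c : Lab n) : 0 ≤ jTie x a c := by
  unfold jTie
  split_ifs <;> norm_num

theorem s34f_jTie_le_one (x : Vec n) (a c : Lab n) : jTie x a c ≤ 1 := by
  unfold jTie
  split_ifs <;> norm_num

/-! ## phases at the two ends -/

theorem s34f_phase_zero (l : List (ℝ × RootD n)) (i : Fin n) : phase l 0 i = 0 := by
  unfold phase
  split_ifs with h
  · simp [relSum]
  · rfl

theorem s34f_phase_end (l : List (ℝ × RootD n)) (k : ℕ) (hk : l.length ≤ k) (i : Fin n) :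
    phase l k i ≤ 1 := by
  unfold phase
  split_ifs with h
  · have h1 := h.choose_spec.1
    have h2 := h.choose_spec.2
    rw [List.take_of_length_le (by omega), h2]
    simp
  · norm_num

/-! ## sorted lists and the counting function -/

theorem s34f_cnt_split (l : List (ℝ × RootD n)) (hl : l.Pairwise (fun p q => p.1 ≤ q.1)) (s : ℝ) :
    (∀ p ∈ l.take (cntLe l s), p.1 ≤ s) ∧ ∀ p ∈ l.drop (cntLe l s), s < p.1 := by
  classical
  induction l with
  | nil => simp
  | cons p l ih =>
    obtain ⟨hp, hl'⟩ := List.pairwise_cons.1 hl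
    obtain ⟨ih1, ih2⟩ := ih hl'
    by_cases hps : p.1 ≤ s
    · have e : cntLe (p :: l) s = cntLe l s + 1 := by
        unfold cntLe
        rw [List.filter_cons_of_pos (by simpa using hps)]
        rfl
      rw [e]
      refine ⟨?_, ?_⟩
      · intro q hq
        rw [List.take_succ_cons] at hq
        rcases List.mem_cons.1 hq with rfl | hq
        · exact hps
        · exact ih1 q hq
      · intro q hq
        rw [List.drop_succ_cons] at hq
        exact ih2 q hq
    · have hps' : s < p.1 := not_le.1 hps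
      have e : cntLe (p :: l) s = 0 := by
        unfold cntLe
        rw [List.length_eq_zero_iff, List.filter_eq_nil_iff]
        intro q hq
        rcases List.mem_cons.1 hq with rfl | hq
        · simpa using hps'
        · have := hp q hq
          simp only [decide_eq_true_eq, not_le]
          linarith
      rw [e]
      refine ⟨by simp, ?_⟩
      intro q hq
      rw [List.drop_zero] at hq
      rcases List.mem_cons.1 hq with rfl | hq
      · exact hps'
      · have := hp q hq
        linarith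

/-! ## the contracts -/

/-- (K-1) -/
theorem s34f_exc_interior (lam xi : Vec n) (θ : Shape n) (w0 : WD n) (l : List (ℝ × RootD n))
    (P : Finset (Fin n)) (X : ExcCtx lam θ xi w0 l P) :
    ∀ p ∈ l, 0 < p.1 ∧ p.1 < (θ.length : ℝ) :=
  (s34f_hard_data lam xi θ X.lbl X.hard w0 l X.sched X.exc.len.le).2.2.1.1

theorem s34f_ne_of_cross {P : Finset (Fin n)} {a c : Lab n} (ha : a.1 ∈ P) (hc : c.1 ∉ P) :
    a.1 ≠ c.1 := fun h => hc (h ▸ ha)

/-- (K0) -/
theorem s34f_J_start (lam xi : Vec n) (θ : Shape n) (w0 : WD n) (l : List (ℝ × RootD n))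
    (P : Finset (Fin n)) (X : ExcCtx lam θ xi w0 l P) :
    crossSum P (fun _ _ => 1) - crossSum P (jTie lam) - crossSum P (jTie (w0.act θ.sum))
      ≤ JPlus θ ⟨w0.act, lam⟩ l P 0 0 := by
  rw [← s34f_crossSum_sub, ← s34f_crossSum_sub]
  unfold JPlus
  have hpos : (stAt θ ⟨w0.act, lam⟩ l 0).pos θ 0 = lam := by
    rw [sc_stAt_zero]
    show lam + w0.act (θ.val 0) = lam
    rw [sc_val_zero, (sc_WD_act_isLinear w0).map_zero, add_zero]
  have hfr : (stAt θ ⟨w0.act, lam⟩ l 0).frame θ.sum = w0.act θ.sum := by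
    rw [sc_stAt_zero]
  rw [hpos, hfr]
  refine s34f_crossSum_le P _ _ fun a c ha hc => ?_
  have hne := s34f_ne_of_cross ha hc
  have t1 := s34f_jTie_nonneg lam a c
  have t2 := s34f_jTie_nonneg (w0.act θ.sum) a c
  unfold jPlus
  split_ifs with h1 h2
  · linarith
  · rw [s34f_phase_zero, s34f_phase_zero]
    unfold jTie
    rw [if_pos h2.1, if_pos h2.2]
    norm_num
  · by_contra hcon
    have hy : lv lam a ≠ lv lam c := by
      intro h
      apply hcon
      unfold jTie at t2 ⊢
      rw [if_pos h]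
      linarith
    have hv : lv (w0.act θ.sum) a ≠ lv (w0.act θ.sum) c := by
      intro h
      apply hcon
      unfold jTie at t1 ⊢
      rw [if_pos h]
      linarith
    have hy' : lv lam a - lv lam c ≠ 0 := sub_ne_zero.2 hy
    have hv' : lv (w0.act θ.sum) a - lv (w0.act θ.sum) c ≠ 0 := sub_ne_zero.2 hv
    have hprod : 0 < (lv lam a - lv lam c) * (lv (w0.act θ.sum) a - lv (w0.act θ.sum) c) :=
      lt_of_le_of_ne (not_lt.1 h1) (mul_ne_zero hy' hv').symm
    rcases (mul_pos_iff.1 hprod) with ⟨p1, p2⟩ | ⟨p1, p2⟩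
    · refine s34f_link_start lam xi θ w0 l P X (labRoot a c hne) ?_ ?_ ?_
      · exact ⟨fun _ => hc, fun _ => ha⟩
      · rw [s34f_dot_labRoot]; exact p1
      · rw [s34f_dot_labRoot]; exact p2
    · refine s34f_link_start lam xi θ w0 l P X (labRoot c a hne.symm) ?_ ?_ ?_
      · exact ⟨fun h => absurd h hc, fun h => absurd ha h⟩
      · rw [s34f_dot_labRoot]; linarith
      · rw [s34f_dot_labRoot]; linarith

/-- (K1) -/
theorem s34f_J_end (lam xi : Vec n) (θ : Shape n) (w0 : WD n) (l : List (ℝ × RootD n))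
    (P : Finset (Fin n)) (X : ExcCtx lam θ xi w0 l P) :
    JMinus θ ⟨w0.act, lam⟩ l P n θ.length
      ≤ crossSum P (jTie ((runSw θ ⟨w0.act, lam⟩ l).pos θ θ.length)) := by
  unfold JMinus
  have hst : stAt θ ⟨w0.act, lam⟩ l n = runSw θ ⟨w0.act, lam⟩ l := by
    unfold stAt
    rw [List.take_of_length_le X.exc.len.le]
  rw [hst]
  refine s34f_crossSum_le P _ _ fun a c ha hc => ?_
  have hne := s34f_ne_of_cross ha hc
  set R := runSw θ ⟨w0.act, lam⟩ l with hR
  have t1 := s34f_jTie_nonneg (R.pos θ θ.length) a c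
  unfold jMinus
  split_ifs with h1 h2
  · by_contra hcon
    have hy : lv (R.pos θ θ.length) a ≠ lv (R.pos θ θ.length) c := by
      intro h
      apply hcon
      unfold jTie
      rw [if_pos h]
    have hy' : lv (R.pos θ θ.length) a - lv (R.pos θ θ.length) c ≠ 0 := sub_ne_zero.2 hy
    have hv' : lv (R.frame θ.sum) a - lv (R.frame θ.sum) c ≠ 0 := sub_ne_zero.2 h1.1
    have hprod : (lv (R.pos θ θ.length) a - lv (R.pos θ θ.length) c) *
        (lv (R.frame θ.sum) a - lv (R.frame θ.sum) c) < 0 :=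
      lt_of_le_of_ne h1.2 (mul_ne_zero hy' hv')
    rcases (mul_neg_iff.1 hprod) with ⟨p1, p2⟩ | ⟨p1, p2⟩
    · refine s34f_link_end lam xi θ w0 l P X (labRoot a c hne) ?_ ?_ ?_
      · exact ⟨fun _ => hc, fun _ => ha⟩
      · show 0 < dot (R.pos θ θ.length) (labRoot a c hne).vec
        rw [s34f_dot_labRoot]; exact p1
      · show 0 < - dot (labRoot a c hne).vec (R.frame θ.sum)
        rw [sc_dot_comm, s34f_dot_labRoot]; linarith
    · refine s34f_link_end lam xi θ w0 l P X (labRoot c a hne.symm) ?_ ?_ ?_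
      · exact ⟨fun h => absurd h hc, fun h => absurd ha h⟩
      · show 0 < dot (R.pos θ θ.length) (labRoot c a hne.symm).vec
        rw [s34f_dot_labRoot]; linarith
      · show 0 < - dot (labRoot c a hne.symm).vec (R.frame θ.sum)
        rw [sc_dot_comm, s34f_dot_labRoot]; linarith
  · have q1 := s34f_phase_end l n X.exc.len.le a.1
    have q2 := s34f_phase_end l n X.exc.len.le c.1
    unfold jTie
    rw [if_pos h2.1]
    linarith
  · exact t1

/-- the difference of two signed coordinates of the position, as a function of time -/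
theorem s34f_gap_labRoot (θ : Shape n) (S : SwState n) (t : ℝ) (a c : Lab n) (h : a.1 ≠ c.1) :
    S.gap θ t (labRoot a c h) = lv (S.pos θ t) a - lv (S.pos θ t) c :=
  s34f_dot_labRoot _ a c h

theorem s34f_total_labRoot (θ : Shape n) (S : SwState n) (a c : Lab n) (h : a.1 ≠ c.1) :
    S.total θ (labRoot a c h) = - (lv (S.frame θ.sum) a - lv (S.frame θ.sum) c) := by
  unfold SwState.total
  rw [sc_dot_comm, s34f_dot_labRoot]

/-- no sign change of a cross gap with nonzero total between two consecutive switch times -/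
theorem s34f_no_cross (lam xi : Vec n) (θ : Shape n) (w0 : WD n) (l : List (ℝ × RootD n))
    (P : Finset (Fin n)) (X : ExcCtx lam θ xi w0 l P) (s s' : ℝ) (h0 : 0 ≤ s) (hs : s < s')
    (h1 : s' ≤ (θ.length : ℝ)) (hno : ∀ p ∈ l, ¬ (s < p.1 ∧ p.1 < s')) (β : RootD n)
    (hβ : β.i ∈ P ↔ β.j ∉ P) (ht : 0 < (stAt θ ⟨w0.act, lam⟩ l (cntLe l s)).total θ β)
    (hg : 0 < (stAt θ ⟨w0.act, lam⟩ l (cntLe l s)).gap θ s β)
    (hg' : (stAt θ ⟨w0.act, lam⟩ l (cntLe l s)).gap θ s' β < 0) : False := by
  set St := stAt θ ⟨w0.act, lam⟩ l (cntLe l s) with hSt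
  have hfr : IsFrame St.frame := sc_isFrame_stAt θ _ (sc_isFrame_act w0) l _
  have hcont : Continuous (fun t => St.gap θ t β) := by
    have e : (fun t => St.gap θ t β) = fun t => dot St.c β.vec - St.coeff θ t β := by
      funext t
      exact sc_gap_eq θ St t β
    rw [e]
    exact continuous_const.sub (sc_coeff_continuous θ St hfr β)
  obtain ⟨t, ⟨ht1, ht2⟩, htz⟩ := intermediate_value_Icc' hs.le hcont.continuousOn
    (show (0 : ℝ) ∈ Set.Icc (St.gap θ s' β) (St.gap θ s β) from ⟨hg'.le, hg.le⟩)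
  have htz' : St.gap θ t β = 0 := htz
  have ht1' : s < t := by
    rcases lt_or_eq_of_le ht1 with h | h
    · exact h
    · rw [← h] at htz'; linarith
  have ht2' : t < s' := by
    rcases lt_or_eq_of_le ht2 with h | h
    · exact h
    · rw [h] at htz'; linarith
  obtain ⟨c1, c2⟩ := s34f_cnt_split l X.sched.sorted s
  refine s34f_link_cross lam xi θ w0 l P X β hβ (cntLe l s) t ?_ ?_ (by linarith) (by linarith)
    htz' ht
  · intro p hp
    have := c1 p hp
    linarith
  · intro p hp
    have q1 := c2 p hp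
    have q2 := hno p (List.mem_of_mem_drop hp)
    have q3 : s' ≤ p.1 := by
      by_contra hlt
      exact q2 ⟨q1, not_le.1 hlt⟩
    linarith

/-- (K2) -/
theorem s34f_J_between (lam xi : Vec n) (θ : Shape n) (w0 : WD n) (l : List (ℝ × RootD n))
    (P : Finset (Fin n)) (X : ExcCtx lam θ xi w0 l P) (s s' : ℝ) (h0 : 0 ≤ s) (hs : s < s')
    (h1 : s' ≤ (θ.length : ℝ)) (hno : ∀ p ∈ l, ¬ (s < p.1 ∧ p.1 < s')) :
    JPlus θ ⟨w0.act, lam⟩ l P (cntLe l s) s ≤ JMinus θ ⟨w0.act, lam⟩ l P (cntLe l s) s' := by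
  unfold JPlus JMinus
  refine s34f_crossSum_le P _ _ fun a c ha hc => ?_
  have hne := s34f_ne_of_cross ha hc
  set St := stAt θ ⟨w0.act, lam⟩ l (cntLe l s) with hSt
  have hfr : IsFrame St.frame := sc_isFrame_stAt θ _ (sc_isFrame_act w0) l _
  -- a pair with equal moving values has a constant gap
  have hconst : lv (St.frame θ.sum) a = lv (St.frame θ.sum) c → ∀ t t' : ℝ,
      lv (St.pos θ t) a - lv (St.pos θ t) c = lv (St.pos θ t') a - lv (St.pos θ t') c := by
    intro hv t t'
    have htot : St.total θ (labRoot a c hne) = 0 := by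
      rw [s34f_total_labRoot, hv]; ring
    rw [← s34f_gap_labRoot θ St t a c hne, ← s34f_gap_labRoot θ St t' a c hne, sc_gap_eq, sc_gap_eq,
      sc_coeff_of_total_zero θ X.lbl.dom St hfr _ htot, sc_coeff_of_total_zero θ X.lbl.dom St hfr _ htot]
  unfold jPlus jMinus
  by_cases c1 : (lv (St.pos θ s) a - lv (St.pos θ s) c) *
      (lv (St.frame θ.sum) a - lv (St.frame θ.sum) c) < 0
  · rw [if_pos c1]
    have hv : lv (St.frame θ.sum) a ≠ lv (St.frame θ.sum) c := by
      intro h
      rw [h, sub_self, mul_zero] at c1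
      exact lt_irrefl _ c1
    have key : (lv (St.pos θ s') a - lv (St.pos θ s') c) *
        (lv (St.frame θ.sum) a - lv (St.frame θ.sum) c) ≤ 0 := by
      by_contra hcon
      have hcon' := not_le.1 hcon
      rcases (mul_neg_iff.1 c1) with ⟨p1, p2⟩ | ⟨p1, p2⟩
      · have p3 : lv (St.pos θ s') a - lv (St.pos θ s') c < 0 := by
          rcases (mul_pos_iff.1 hcon') with ⟨q1, q2⟩ | ⟨q1, q2⟩
          · linarith
          · exact q1
        refine s34f_no_cross lam xi θ w0 l P X s s' h0 hs h1 hno (labRoot a c hne)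
          ⟨fun _ => hc, fun _ => ha⟩ ?_ ?_ ?_
        · rw [s34f_total_labRoot]; linarith
        · rw [s34f_gap_labRoot]; exact p1
        · rw [s34f_gap_labRoot]; exact p3
      · have p3 : 0 < lv (St.pos θ s') a - lv (St.pos θ s') c := by
          rcases (mul_pos_iff.1 hcon') with ⟨q1, q2⟩ | ⟨q1, q2⟩
          · exact q1
          · linarith
        refine s34f_no_cross lam xi θ w0 l P X s s' h0 hs h1 hno (labRoot c a hne.symm)
          ⟨fun h => absurd h hc, fun h => absurd ha h⟩ ?_ ?_ ?_
        · rw [s34f_total_labRoot]; linarith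
        · rw [s34f_gap_labRoot]; linarith
        · rw [s34f_gap_labRoot]; linarith
    rw [if_pos ⟨hv, key⟩]
  · rw [if_neg c1]
    by_cases c2 : lv (St.pos θ s) a = lv (St.pos θ s) c ∧
        lv (St.frame θ.sum) a = lv (St.frame θ.sum) c
    · rw [if_pos c2, if_neg (fun h => h.1 c2.2)]
      have e := hconst c2.2 s' s
      rw [c2.1, sub_self] at e
      rw [if_pos ⟨sub_eq_zero.1 e, c2.2⟩]
    · rw [if_neg c2]
      split_ifs with d1 d2
      · norm_num
      · exfalso
        apply c2
        have e := hconst d2.2 s s'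
        rw [d2.1, sub_self] at e
        exact ⟨sub_eq_zero.1 e, d2.2⟩
      · exact le_refl _

/-! ## direct link (iv): a crossing at a knot on two axes that the knot does not use (consumed by package H) -/

theorem s34f_cntLt_split (l : List (ℝ × RootD n)) (hl : l.Pairwise (fun p q => p.1 ≤ q.1)) (s : ℝ) :
    (∀ p ∈ l.take (cntLt l s), p.1 < s) ∧ ∀ p ∈ l.drop (cntLt l s), s ≤ p.1 := by
  classical
  induction l with
  | nil => simp
  | cons p l ih =>
    obtain ⟨hp, hl'⟩ := List.pairwise_cons.1 hl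
    obtain ⟨ih1, ih2⟩ := ih hl'
    by_cases hps : p.1 < s
    · have e : cntLt (p :: l) s = cntLt l s + 1 := by
        unfold cntLt
        rw [List.filter_cons_of_pos (by simpa using hps)]
        rfl
      rw [e]
      refine ⟨?_, ?_⟩
      · intro q hq
        rw [List.take_succ_cons] at hq
        rcases List.mem_cons.1 hq with rfl | hq
        · exact hps
        · exact ih1 q hq
      · intro q hq
        rw [List.drop_succ_cons] at hq
        exact ih2 q hq
    · have hps' : s ≤ p.1 := not_lt.1 hps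
      have e : cntLt (p :: l) s = 0 := by
        unfold cntLt
        rw [List.length_eq_zero_iff, List.filter_eq_nil_iff]
        intro q hq
        rcases List.mem_cons.1 hq with rfl | hq
        · simpa using hps'
        · have := hp q hq
          simp only [decide_eq_true_eq, not_lt]
          linarith
      rw [e]
      refine ⟨by simp, ?_⟩
      intro q hq
      rw [List.drop_zero] at hq
      rcases List.mem_cons.1 hq with rfl | hq
      · exact hps'
      · have := hp q hq
        linarith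

/-- a root is orthogonal to the root of two labels on axes that it does not use -/
theorem s34f_dot_labRoot_off (γ : RootD n) (a c : Lab n) (h : a.1 ≠ c.1) (h1 : γ.i ≠ a.1)
    (h2 : γ.j ≠ a.1) (h3 : γ.i ≠ c.1) (h4 : γ.j ≠ c.1) : dot γ.vec (labRoot a c h).vec = 0 := by
  rw [s34f_dot_labRoot]
  unfold lv RootD.vec
  rw [if_neg h1.symm, if_neg h2.symm, if_neg h3.symm, if_neg h4.symm]
  ring

/-- direct link (iv): two cross labels on axes not used by the switches at the time `τ` of a knot cannot have equal positions at `τ`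
and distinct moving values before the knot. -/
theorem s34f_link_knot (lam xi : Vec n) (θ : Shape n) (w0 : WD n) (l : List (ℝ × RootD n))
    (P : Finset (Fin n)) (X : ExcCtx lam θ xi w0 l P) (τ : ℝ) (hτ : ∃ p ∈ l, p.1 = τ) (a c : Lab n)
    (hac : a.1 ∈ P ↔ c.1 ∉ P)
    (ha : ∀ p ∈ l, p.1 = τ → p.2.i ≠ a.1 ∧ p.2.j ≠ a.1)
    (hc : ∀ p ∈ l, p.1 = τ → p.2.i ≠ c.1 ∧ p.2.j ≠ c.1)
    (hy : lv ((stAt θ ⟨w0.act, lam⟩ l (cntLt l τ)).pos θ τ) a
      = lv ((stAt θ ⟨w0.act, lam⟩ l (cntLt l τ)).pos θ τ) c)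
    (hv : lv ((stAt θ ⟨w0.act, lam⟩ l (cntLt l τ)).frame θ.sum) a
      ≠ lv ((stAt θ ⟨w0.act, lam⟩ l (cntLt l τ)).frame θ.sum) c) : False := by
  have hne : a.1 ≠ c.1 := by
    intro h
    rw [h] at hac
    by_cases hP : c.1 ∈ P
    · exact (hac.1 hP) hP
    · exact hP (hac.2 hP)
  obtain ⟨p₀, hp₀, hp₀τ⟩ := hτ
  have hint := s34f_exc_interior lam xi θ w0 l P X p₀ hp₀
  rw [hp₀τ] at hint
  obtain ⟨c1, c2⟩ := s34f_cntLt_split l X.sched.sorted τ
  rcases lt_or_gt_of_ne hv with hlt | hgt
  · refine s34f_link_cross_gen lam xi θ w0 l P X (labRoot a c hne) hac (cntLt l τ) τ c1 c2 ?_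
      hint.1 hint.2 ?_ ?_
    · intro p hp hpτ
      have hp' := List.mem_of_mem_drop hp
      exact s34f_dot_labRoot_off p.2 a c hne (ha p hp' hpτ).1 (ha p hp' hpτ).2 (hc p hp' hpτ).1
        (hc p hp' hpτ).2
    · rw [s34f_gap_labRoot, hy, sub_self]
    · rw [s34f_total_labRoot]; linarith
  · refine s34f_link_cross_gen lam xi θ w0 l P X (labRoot c a hne.symm) ?_ (cntLt l τ) τ c1 c2 ?_
      hint.1 hint.2 ?_ ?_
    · show c.1 ∈ P ↔ a.1 ∉ P
      constructor
      · intro h h'
        exact (hac.1 h') h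
      · intro h
        by_contra h'
        exact h (hac.2 h')
    · intro p hp hpτ
      have hp' := List.mem_of_mem_drop hp
      exact s34f_dot_labRoot_off p.2 c a hne.symm (hc p hp' hpτ).1 (hc p hp' hpτ).2 (ha p hp' hpτ).1
        (ha p hp' hpτ).2
    · rw [s34f_gap_labRoot, hy, sub_self]
    · rw [s34f_total_labRoot]; linarith

end Claimed.Agent.R282
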