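import Claimed.Agent.R282.S34.Link
import Claimed.Agent.R282.S34.Lat.Exc
import Claimed.Agent.R282.S34.Lat.Rel
import Claimed.Agent.R282.Sched.Simplify

/-!
# Row 282, package F: from an inserted switch to a link      (architect helper134)

`InsData` : an exact schedule `l₁ ++ (t,β) :: l₂` with `n + 1` switches obtained by inserting ONE switch into a strict half-integral schedule whose simultaneous switches are orthogonal.
`s34f_base_of_ins` (leaf L-F-BASE1, list/index bookkeeping only): `InsData` + an oriented primitive relation = `LinkBase`.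
`s34f_gapLin_neg`, `s34f_half_neg` (leaf L-F-BASE2).
`s34f_link_of_ins` (glue, proved): `InsData` gives `HasLink` in each of the three modes (time `0`, time `T`, zero gap at an interior time).
All proved; no open leaf in this file.

PLAN for `s34f_base_of_ins`.  `S := ⟨w0.act, lam⟩`, `l := l₁ ++ (t,β) :: l₂`, `k := l₁.length`.  For an index `i`:  `i < k`: `l[i] = l₁[i]`, `stAt θ S l i = stAt θ S l₁ i` (`List.take_append…`);
 `i = k`: `l[k] = (t,β)`, `stAt θ S l k = runSw θ S l₁`;   `i = k + 1 + j`: `l[i] = l₂[j]`, `stAt θ S l i = stAt θ ((runSw θ S l₁).step θ t β) l₂ j` (`sc_runSw_append`).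
 * `tot`: `sc_totals_append`, `swTotals` of a cons.   * `time`, `gap`: `SwStrict` of the two parts through `sc_gaps_get` (`List.getD`/`getElem` membership), resp. `htime`, `hgap` at `i = k`.
 * `ord`: the whole list is `Pairwise` (simultaneous → orthogonal) by `orth` and `alone`; `List.pairwise_iff_getElem`; always the first alternative.
-/

set_option autoImplicit false

namespace Claimed.Agent.R282

variable {n : ℕ}

/-- one switch `(t, β)` inserted into a strict half-integral schedule. -/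
structure InsData (lam : Vec n) (θ : Shape n) (xi : Vec n) (w0 : WD n)
    (l₁ l₂ : List (ℝ × RootD n)) (t : ℝ) (β : RootD n) : Prop where
  sched : IsSchedule lam θ xi w0 (l₁ ++ (t, β) :: l₂)
  len : l₁.length + l₂.length = n
  gen : SwGenQ (l₁ ++ (t, β) :: l₂)
  strict₁ : SwStrict θ ⟨w0.act, lam⟩ l₁
  strict₂ : SwStrict θ ((runSw θ ⟨w0.act, lam⟩ l₁).step θ t β) l₂
  half₁ : ∀ a ∈ swCoeffs θ ⟨w0.act, lam⟩ l₁, HalfInt a
  half₀ : HalfInt ((runSw θ ⟨w0.act, lam⟩ l₁).coeff θ t β)
  half₂ : ∀ a ∈ swCoeffs θ ((runSw θ ⟨w0.act, lam⟩ l₁).step θ t β) l₂, HalfInt a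
  tot : 0 < (runSw θ ⟨w0.act, lam⟩ l₁).total θ β
  alone : ∀ p ∈ l₁ ++ l₂, p.1 = t → dot p.2.vec β.vec = 0
  orth : (l₁ ++ l₂).Pairwise (fun p q => p.1 = q.1 → dot p.2.vec q.2.vec = 0)

/-- TRAP: for `r : List ℤ` the text `r.map (fun z => (z : ℝ))` elaborates to `List.map (fun z => z) (do let a ← r; pure ↑a)`; this lemma normalises it. -/
theorem s34f_castList (r : List ℤ) :
    (r.map (fun z => (z : ℝ)) : List ℝ) = List.map (fun z : ℤ => (z : ℝ)) r := by
  induction r with
  | nil => rfl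
  | cons a r ih => simpa using ih

theorem s34fb_mem_of_ne {α : Type*} (A B : List α) (x : α) (i : ℕ) (hi : i < (A ++ x :: B).length)
    (hne : i ≠ A.length) : (A ++ x :: B)[i] ∈ A ++ B := by
  rcases lt_or_gt_of_ne hne with h | h
  · rw [List.getElem_append_left h]
    exact List.mem_append_left _ (List.getElem_mem h)
  · rw [List.getElem_append_right h.le]
    obtain ⟨j, hj⟩ : ∃ j, i - A.length = j + 1 := ⟨i - A.length - 1, by omega⟩
    simp only [hj, List.getElem_cons_succ]
    exact List.mem_append_right _ (List.getElem_mem _)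

theorem s34fb_getElem_mid {α : Type*} (A B : List α) (x : α) (hi : A.length < (A ++ x :: B).length) :
    (A ++ x :: B)[A.length] = x := by
  simp

/-- assembly of `LinkBase` (bookkeeping). -/
theorem s34f_base_of_ins (lam xi : Vec n) (θ : Shape n) (w0 : WD n) (l₁ l₂ : List (ℝ × RootD n))
    (t : ℝ) (β : RootD n) (D : InsData lam θ xi w0 l₁ l₂ t β) (r : List ℤ)
    (rel : IsPrimRel r (l₁ ++ (t, β) :: l₂))
    (half : List.Forall₂ (fun (m : ℝ) (a : ℤ) => ∃ z : ℤ, m + (1 / 2) * a = z)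
      (swCoeffs θ ⟨w0.act, lam⟩ (l₁ ++ (t, β) :: l₂)) r)
    (htime : (0 < t ∧ t < (θ.length : ℝ)) ∨ (t = 0 ∧ 0 < r.getD l₁.length 0) ∨
      (t = (θ.length : ℝ) ∧ r.getD l₁.length 0 < 0))
    (hgap : 0 < (runSw θ ⟨w0.act, lam⟩ l₁).gap θ t β ∨
      ((runSw θ ⟨w0.act, lam⟩ l₁).gap θ t β = 0 ∧
        0 ≤ gapLin (r.map (fun z => (z : ℝ))) (l₁ ++ (t, β) :: l₂) l₁.length β)) :
    LinkBase lam θ xi w0 (l₁ ++ (t, β) :: l₂) r := by
  have hgaps : swGaps θ ⟨w0.act, lam⟩ (l₁ ++ (t, β) :: l₂) = swGaps θ ⟨w0.act, lam⟩ l₁ ++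
      (runSw θ ⟨w0.act, lam⟩ l₁).gap θ t β ::
        swGaps θ ((runSw θ ⟨w0.act, lam⟩ l₁).step θ t β) l₂ := by
    rw [sc_gaps_append]; rfl
  have htots : swTotals θ ⟨w0.act, lam⟩ (l₁ ++ (t, β) :: l₂) = swTotals θ ⟨w0.act, lam⟩ l₁ ++
      (runSw θ ⟨w0.act, lam⟩ l₁).total θ β ::
        swTotals θ ((runSw θ ⟨w0.act, lam⟩ l₁).step θ t β) l₂ := by
    rw [sc_totals_append]; rfl
  refine
    { sched := D.sched
      len := ?_
      gen := D.gen
      rel := rel
      half := half
      tot := ?_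
      time := ?_
      gap := ?_
      ord := ?_ }
  · have := D.len
    simp only [List.length_append, List.length_cons]
    omega
  · intro a ha
    rw [htots, List.mem_append, List.mem_cons] at ha
    rcases ha with ha | rfl | ha
    · exact D.strict₁.2.2 a ha
    · exact D.tot
    · exact D.strict₂.2.2 a ha
  · intro i hi
    by_cases hik : i = l₁.length
    · subst hik
      simp only [s34fb_getElem_mid]
      exact htime
    · left
      rcases List.mem_append.1 (s34fb_mem_of_ne l₁ l₂ (t, β) i hi hik) with h | h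
      · exact D.strict₁.1 _ h
      · exact D.strict₂.1 _ h
  · intro i hi
    by_cases hik : i = l₁.length
    · subst hik
      have hst : stAt θ ⟨w0.act, lam⟩ (l₁ ++ (t, β) :: l₂) l₁.length = runSw θ ⟨w0.act, lam⟩ l₁ := by
        unfold stAt
        rw [List.take_left']
        rfl
      simp only [s34fb_getElem_mid, hst]
      exact hgap
    · left
      rw [← sc_gaps_get θ ⟨w0.act, lam⟩ _ i hi]
      have hi' : i < (swGaps θ ⟨w0.act, lam⟩ l₁ ++ (runSw θ ⟨w0.act, lam⟩ l₁).gap θ t β ::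
          swGaps θ ((runSw θ ⟨w0.act, lam⟩ l₁).step θ t β) l₂).length := by
        rw [← hgaps, sc_gaps_length]; exact hi
      rw [hgaps, List.getD_eq_getElem _ _ hi']
      rcases List.mem_append.1 (s34fb_mem_of_ne _ _ _ i hi' (by rw [sc_gaps_length]; exact hik))
        with h | h
      · exact D.strict₁.2.1 _ h
      · exact D.strict₂.2.1 _ h
  · intro i j hi hj hij he
    left
    have hpw : (l₁ ++ (t, β) :: l₂).Pairwise (fun p q => p.1 = q.1 → dot p.2.vec q.2.vec = 0) := by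
      have h := D.orth
      rw [List.pairwise_append] at h ⊢
      refine ⟨h.1, ?_, ?_⟩
      · rw [List.pairwise_cons]
        refine ⟨fun b hb e => ?_, h.2.1⟩
        rw [sc_dot_comm]
        exact D.alone b (List.mem_append_right _ hb) e.symm
      · intro a ha b hb e
        rcases List.mem_cons.1 hb with rfl | hb
        · exact D.alone a (List.mem_append_left _ ha) e
        · exact h.2.2 a ha b hb e
    exact (List.pairwise_iff_getElem.1 hpw) i j hi hj hij he

theorem s34f_gapLin_neg (r : List ℤ) (l : List (ℝ × RootD n)) (i : ℕ) (β : RootD n) :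
    gapLin ((r.map (fun a => -a)).map (fun z => (z : ℝ))) l i β
      = - gapLin (r.map (fun z => (z : ℝ))) l i β := by
  have e : (r.map (fun a => -a)).map (fun z : ℤ => (z : ℝ))
      = (r.map (fun z : ℤ => (z : ℝ))).map ((-1 : ℝ) * ·) := by
    simp [List.map_map, Function.comp_def]
  rw [s34f_castList, s34f_castList]
  unfold gapLin
  rw [e, ← List.map_take, sc_relSum_smul, sc_dot_smul_left]
  have e2 : ((r.map (fun z : ℤ => (z : ℝ))).map ((-1 : ℝ) * ·)).getD i 0
      = - (r.map (fun z : ℤ => (z : ℝ))).getD i 0 := by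
    have := List.getD_map (f := fun a : ℝ => (-1 : ℝ) * a) (l := r.map (fun z : ℤ => (z : ℝ))) (n := i) (d := 0)
    simpa using this
  rw [e2]
  ring

theorem s34f_half_neg (m : List ℝ) (r : List ℤ)
    (h : List.Forall₂ (fun (m : ℝ) (a : ℤ) => ∃ z : ℤ, m + (1 / 2) * a = z) m r) :
    List.Forall₂ (fun (m : ℝ) (a : ℤ) => ∃ z : ℤ, m + (1 / 2) * a = z) m (r.map (fun a => -a)) := by
  rw [List.forall₂_map_right_iff]
  refine h.imp ?_
  rintro x a ⟨z, hz⟩
  exact ⟨z - a, by push_cast; linarith⟩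

theorem s34f_getD_neg (r : List ℤ) (i : ℕ) : (r.map (fun a => -a)).getD i 0 = - r.getD i 0 := by
  have := List.getD_map (f := fun a : ℤ => -a) (l := r) (n := i) (d := 0)
  simpa using this

/-- the coefficient list of the augmented schedule. -/
theorem s34f_ins_coeffs (θ : Shape n) (S : SwState n) (l₁ l₂ : List (ℝ × RootD n)) (t : ℝ)
    (β : RootD n) :
    swCoeffs θ S (l₁ ++ (t, β) :: l₂) = swCoeffs θ S l₁ ++
      (runSw θ S l₁).coeff θ t β :: swCoeffs θ ((runSw θ S l₁).step θ t β) l₂ := by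
  rw [sc_coeffs_append]
  rfl

/-- **an inserted switch gives a link.** -/
theorem s34f_link_of_ins (lam xi : Vec n) (θ : Shape n) (L : Lbl lam θ xi) (G : GenericShape θ)
    (w0 : WD n) (l₁ l₂ : List (ℝ × RootD n)) (t : ℝ) (β : RootD n)
    (D : InsData lam θ xi w0 l₁ l₂ t β)
    (mode : (t = 0 ∧ 0 < (runSw θ ⟨w0.act, lam⟩ l₁).gap θ t β ∧ SwIndep (l₁ ++ l₂)) ∨
      (t = (θ.length : ℝ) ∧ 0 < (runSw θ ⟨w0.act, lam⟩ l₁).gap θ t β ∧ SwIndep (l₁ ++ l₂)) ∨
      (0 < t ∧ t < (θ.length : ℝ) ∧ (runSw θ ⟨w0.act, lam⟩ l₁).gap θ t β = 0)) :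
    HasLink lam θ xi := by
  have hlen : (l₁ ++ (t, β) :: l₂).length = n + 1 := by
    have := D.len
    simp only [List.length_append, List.length_cons]
    omega
  obtain ⟨r, rel⟩ := lat_primRel_exists (l := l₁ ++ (t, β) :: l₂) (by omega)
  have h2 : ∀ a ∈ swCoeffs θ ⟨w0.act, lam⟩ (l₁ ++ (t, β) :: l₂), HalfInt a := by
    intro a ha
    rw [s34f_ins_coeffs, List.mem_append, List.mem_cons] at ha
    rcases ha with ha | rfl | ha
    · exact D.half₁ a ha
    · exact D.half₀
    · exact D.half₂ a ha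
  rcases lat_half_int D.gen hlen rel _ (sc_coeffs_length _ _ _) h2
    (sc_balance_mem_Q lam xi θ L w0 _ D.sched) with hint | half
  · -- integral base point
    refine ⟨0, le_rfl, by norm_num, w0, _, r, D.sched, hlen, D.gen, rel, ?_⟩
    have hl : (swCoeffs θ ⟨w0.act, lam⟩ (l₁ ++ (t, β) :: l₂)).length = r.length := by
      rw [sc_coeffs_length, rel.1]
    rw [List.forall₂_iff_get]
    refine ⟨hl, fun i h₁ h₂ => ?_⟩
    obtain ⟨z, hz⟩ := hint _ (List.get_mem _ ⟨i, h₁⟩)
    exact ⟨z, by rw [zero_mul, add_zero]; exact hz⟩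
  · have rel' : IsPrimRel (r.map (fun a => -a)) (l₁ ++ (t, β) :: l₂) := lat_primRel_neg rel
    have half' := s34f_half_neg _ r half
    rcases mode with ⟨ht, hg, hind⟩ | ⟨ht, hg, hind⟩ | ⟨h0, h1, hg⟩
    · have hne := lat_primRel_entry_ne l₁ l₂ (t, β) rel hind
      rcases lt_or_gt_of_ne hne with hlt | hgt
      · exact s34_link_of_base lam xi θ G w0 _ _ (s34f_base_of_ins lam xi θ w0 l₁ l₂ t β D _ rel' half'
          (Or.inr (Or.inl ⟨ht, by rw [s34f_getD_neg]; omega⟩)) (Or.inl hg))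
      · exact s34_link_of_base lam xi θ G w0 _ _ (s34f_base_of_ins lam xi θ w0 l₁ l₂ t β D _ rel half
          (Or.inr (Or.inl ⟨ht, hgt⟩)) (Or.inl hg))
    · have hne := lat_primRel_entry_ne l₁ l₂ (t, β) rel hind
      rcases lt_or_gt_of_ne hne with hlt | hgt
      · exact s34_link_of_base lam xi θ G w0 _ _ (s34f_base_of_ins lam xi θ w0 l₁ l₂ t β D _ rel half
          (Or.inr (Or.inr ⟨ht, hlt⟩)) (Or.inl hg))
      · exact s34_link_of_base lam xi θ G w0 _ _ (s34f_base_of_ins lam xi θ w0 l₁ l₂ t β D _ rel' half'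
          (Or.inr (Or.inr ⟨ht, by rw [s34f_getD_neg]; omega⟩)) (Or.inl hg))
    · rcases le_total 0 (gapLin (r.map (fun z => (z : ℝ))) (l₁ ++ (t, β) :: l₂) l₁.length β) with h | h
      · exact s34_link_of_base lam xi θ G w0 _ _ (s34f_base_of_ins lam xi θ w0 l₁ l₂ t β D _ rel half
          (Or.inl ⟨h0, h1⟩) (Or.inr ⟨hg, h⟩))
      · exact s34_link_of_base lam xi θ G w0 _ _ (s34f_base_of_ins lam xi θ w0 l₁ l₂ t β D _ rel' half'
          (Or.inl ⟨h0, h1⟩) (Or.inr ⟨hg, by rw [s34f_gapLin_neg]; linarith⟩))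

end Claimed.Agent.R282
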