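import Claimed.Agent.R282.Sched.Simplify

/-!
# Row 282, package F (direct links): insertion of one switch into a schedule      (architect helper134)

Converses of the simplifications of `Sched/Simplify.lean`.  PAPER-FREE; use the statements of `Sched/*.lean` as black boxes.
All proved (helper134); no open leaf in this file.

PLANS.
* `ins_zero`: `w0'` with `w0'.act x = refl β (w0.act x)` (`sc_WD_refl`, `sc_WD_mul`).  `coeff = 0` by `sc_coeff_zero`; the state after the switch is `⟨w0.act, lam⟩` (`sc_refl_refl`, `zero_smul`);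
   `gap = dot (lam + w0'.act (θ.val 0)) β.vec = dot lam β.vec` (`sc_val_zero`, linearity), `total = - dot β.vec (refl β (w0.act θ.sum)) = dot (w0.act θ.sum) β.vec` (`sc_dot_refl_left`, `sc_refl_self`).
* `ins_end`: `sc_valid_append`, `sc_runSw_append`, `sc_pos_step`; sortedness: all old times are `≤ T`.
* `ins_zero_gap`: `S := runSw θ ⟨w0.act, lam⟩ l₁`, `g := WB.ofRoot β`.  `S.step θ t β = S.mapB g`: frames by `sc_ofRoot_act`; translation parts: `refl β S.c = S.c - (S.c·β) β` and `S.c·β = S.coeff θ t β` by `sc_gap_eq` and `hg`.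
   Then `sc_equiv_run/valid/pos`; the endpoint is `refl β (w.act xi)` (`sc_WD_refl`, `sc_WD_mul`).
* `merge`: `S := runSw θ ⟨w0.act, lam⟩ l₁`, `f = S.frame`, `u = f x` with `β'·u = 0` for `x` in the face:  `s_{β'} s_β u = u - (u·β)(β + β') = s_{β''} u`;
   `m' = - β'·s_β f η(τ) = - (β + β')·f η(τ) = m` (as `β·β' = -1`), `m'' = m`;  so the states after `[(τ,β),(τ,β')]` and after `[(τ,β'')]` are `FrameEq` (`sc_inFace_val`); `sc_frameEq_valid`, `sc_frameEq_pos`/`run`.
   gap of `β''` = `G + G'` (`sc_pos_step`), total of `β''` = total of `β`.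
-/

set_option autoImplicit false

namespace Claimed.Agent.R282

variable {n : ℕ}

theorem s34fi_refl_mul (β : RootD n) (w : WD n) : ∃ w' : WD n, ∀ x, w'.act x = refl β (w.act x) := by
  obtain ⟨u, hu⟩ := sc_WD_refl β
  obtain ⟨w', hw⟩ := sc_WD_mul u w
  exact ⟨w', fun x => by rw [hw, hu]⟩

theorem s34fi_dot_vec_refl (β : RootD n) (v : Vec n) : dot β.vec (refl β v) = - dot v β.vec := by
  rw [sc_dot_comm, sc_dot_refl_left, sc_refl_self, sc_dot_neg_right]

/-- insertion of a switch at time `0`: the old initial frame occurs just after the switch. -/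
theorem s34f_ins_zero (lam xi : Vec n) (θ : Shape n) (w0 : WD n) (l : List (ℝ × RootD n))
    (hs : IsSchedule lam θ xi w0 l) (β : RootD n) (hg : 0 ≤ dot lam β.vec)
    (ht : 0 ≤ dot (w0.act θ.sum) β.vec) :
    ∃ w0' : WD n, (⟨w0'.act, lam⟩ : SwState n).step θ 0 β = ⟨w0.act, lam⟩ ∧
      IsSchedule lam θ xi w0' ((0, β) :: l) ∧
      (⟨w0'.act, lam⟩ : SwState n).coeff θ 0 β = 0 ∧
      (⟨w0'.act, lam⟩ : SwState n).gap θ 0 β = dot lam β.vec ∧
      (⟨w0'.act, lam⟩ : SwState n).total θ β = dot (w0.act θ.sum) β.vec := by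
  obtain ⟨w0', hw⟩ := s34fi_refl_mul β w0
  have hc : (⟨w0'.act, lam⟩ : SwState n).coeff θ 0 β = 0 :=
    sc_coeff_zero θ ⟨w0'.act, lam⟩ (sc_isFrame_act w0') β
  have hstep : (⟨w0'.act, lam⟩ : SwState n).step θ 0 β = ⟨w0.act, lam⟩ := by
    unfold SwState.step
    rw [hc]
    congr 1
    · funext x
      show refl β (w0'.act x) = w0.act x
      rw [hw, sc_refl_refl]
    · show lam - (0 : ℝ) • β.vec = lam
      rw [zero_smul, sub_zero]
  have hgap : (⟨w0'.act, lam⟩ : SwState n).gap θ 0 β = dot lam β.vec := by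
    show dot (lam + w0'.act (θ.val 0)) β.vec = dot lam β.vec
    rw [sc_val_zero, (sc_WD_act_isLinear w0').map_zero, add_zero]
  have htot : (⟨w0'.act, lam⟩ : SwState n).total θ β = dot (w0.act θ.sum) β.vec := by
    show - dot β.vec (w0'.act θ.sum) = dot (w0.act θ.sum) β.vec
    rw [hw, s34fi_dot_vec_refl, neg_neg]
  refine ⟨w0', hstep, ?_, hc, hgap, htot⟩
  refine ⟨?_, ?_, ?_, ?_⟩
  · intro p hp
    rcases List.mem_cons.1 hp with rfl | hp
    · exact ⟨le_refl _, Nat.cast_nonneg _⟩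
    · exact hs.times_mem p hp
  · rw [List.pairwise_cons]
    exact ⟨fun q hq => (hs.times_mem q hq).1, hs.sorted⟩
  · show 0 ≤ (⟨w0'.act, lam⟩ : SwState n).gap θ 0 β ∧ 0 ≤ (⟨w0'.act, lam⟩ : SwState n).total θ β ∧
      SwValid θ ((⟨w0'.act, lam⟩ : SwState n).step θ 0 β) l
    rw [hgap, htot, hstep]
    exact ⟨hg, ht, hs.valid⟩
  · show ∃ w : WD n, (runSw θ ((⟨w0'.act, lam⟩ : SwState n).step θ 0 β) l).pos θ θ.length = w.act xi
    rw [hstep]
    exact hs.endpoint

/-- insertion of a switch at time `T`. -/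
theorem s34f_ins_end (lam xi : Vec n) (θ : Shape n) (w0 : WD n) (l : List (ℝ × RootD n))
    (hs : IsSchedule lam θ xi w0 l) (β : RootD n)
    (hg : 0 ≤ (runSw θ ⟨w0.act, lam⟩ l).gap θ θ.length β)
    (ht : 0 ≤ (runSw θ ⟨w0.act, lam⟩ l).total θ β) :
    IsSchedule lam θ xi w0 (l ++ [((θ.length : ℝ), β)]) := by
  refine ⟨?_, ?_, ?_, ?_⟩
  · intro p hp
    rcases List.mem_append.1 hp with hp | hp
    · exact hs.times_mem p hp
    · rw [List.mem_singleton] at hp
      subst hp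
      exact ⟨Nat.cast_nonneg _, le_refl _⟩
  · rw [List.pairwise_append]
    refine ⟨hs.sorted, List.pairwise_singleton _ _, ?_⟩
    intro a ha b hb
    rw [List.mem_singleton] at hb
    subst hb
    exact (hs.times_mem a ha).2
  · rw [sc_valid_append]
    exact ⟨hs.valid, hg, ht, trivial⟩
  · rw [sc_runSw_append]
    show ∃ w : WD n, ((runSw θ ⟨w0.act, lam⟩ l).step θ θ.length β).pos θ θ.length = w.act xi
    rw [sc_pos_step]
    exact hs.endpoint

theorem s34fi_mem_mapSw {g : WB n} {l : List (ℝ × RootD n)} {p : ℝ × RootD n} (h : p ∈ mapSw g l) :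
    ∃ q ∈ l, q.1 = p.1 := by
  unfold mapSw at h
  obtain ⟨q, hq, rfl⟩ := List.mem_map.1 h
  exact ⟨q, hq, rfl⟩

/-- insertion of a switch of zero gap; the suffix is reflected. -/
theorem s34f_ins_zero_gap (lam xi : Vec n) (θ : Shape n) (w0 : WD n)
    (l₁ l₂ : List (ℝ × RootD n)) (hs : IsSchedule lam θ xi w0 (l₁ ++ l₂)) (t : ℝ) (β : RootD n)
    (h0 : 0 ≤ t) (h1 : t ≤ (θ.length : ℝ)) (hl₁ : ∀ p ∈ l₁, p.1 ≤ t) (hl₂ : ∀ p ∈ l₂, t ≤ p.1)
    (hg : (runSw θ ⟨w0.act, lam⟩ l₁).gap θ t β = 0)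
    (ht : 0 ≤ (runSw θ ⟨w0.act, lam⟩ l₁).total θ β) :
    IsSchedule lam θ xi w0 (l₁ ++ (t, β) :: mapSw (WB.ofRoot β) l₂) ∧
      (runSw θ ⟨w0.act, lam⟩ l₁).step θ t β = (runSw θ ⟨w0.act, lam⟩ l₁).mapB (WB.ofRoot β) := by
  set S := runSw θ ⟨w0.act, lam⟩ l₁ with hS
  have hstep : S.step θ t β = S.mapB (WB.ofRoot β) := by
    unfold SwState.step SwState.mapB
    congr 1
    · funext x
      rw [sc_ofRoot_act]
    · rw [sc_ofRoot_act]
      have e := sc_gap_eq θ S t β
      rw [hg] at e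
      have e' : S.coeff θ t β = dot S.c β.vec := by linarith
      rw [e']
      rfl
  refine ⟨⟨?_, ?_, ?_, ?_⟩, hstep⟩
  · intro p hp
    rcases List.mem_append.1 hp with hp | hp
    · exact hs.times_mem p (List.mem_append_left _ hp)
    · rcases List.mem_cons.1 hp with rfl | hp
      · exact ⟨h0, h1⟩
      · obtain ⟨q, hq, hqp⟩ := s34fi_mem_mapSw hp
        rw [← hqp]
        exact hs.times_mem q (List.mem_append_right _ hq)
  · have hsort := hs.sorted
    rw [List.pairwise_append] at hsort ⊢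
    refine ⟨hsort.1, ?_, ?_⟩
    · rw [List.pairwise_cons]
      refine ⟨?_, ?_⟩
      · intro q hq
        obtain ⟨q', hq', e⟩ := s34fi_mem_mapSw hq
        show t ≤ q.1
        rw [← e]
        exact hl₂ q' hq'
      · unfold mapSw
        rw [List.pairwise_map]
        exact hsort.2.1
    · intro a ha b hb
      rcases List.mem_cons.1 hb with rfl | hb
      · exact hl₁ a ha
      · obtain ⟨q', hq', e⟩ := s34fi_mem_mapSw hb
        rw [← e]
        exact (hl₁ a ha).trans (hl₂ q' hq')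
  · have hv := hs.valid
    rw [sc_valid_append] at hv ⊢
    refine ⟨hv.1, ?_⟩
    show 0 ≤ S.gap θ t β ∧ 0 ≤ S.total θ β ∧ SwValid θ (S.step θ t β) (mapSw (WB.ofRoot β) l₂)
    rw [hstep, sc_equiv_valid]
    exact ⟨hg.ge, ht, hv.2⟩
  · obtain ⟨w, hw⟩ := hs.endpoint
    rw [sc_runSw_append] at hw ⊢
    obtain ⟨w', hw'⟩ := s34fi_refl_mul β w
    refine ⟨w', ?_⟩
    show (runSw θ (S.step θ t β) (mapSw (WB.ofRoot β) l₂)).pos θ θ.length = w'.act xi
    rw [hstep, sc_equiv_run, sc_equiv_pos, hw, sc_ofRoot_act, hw']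

/-- `s_{β'} s_β u = s_{β+β'} u = u - (u·β)(β+β')` if `β·β' = -1` and `u ⊥ β'`. -/
theorem s34fi_refl_two (β β' β'' : RootD n) (hdot : dot β.vec β'.vec = -1)
    (hβ'' : β''.vec = β.vec + β'.vec) (u : Vec n) (hu : dot β'.vec u = 0) :
    refl β' (refl β u) = refl β'' u := by
  have hu' : dot u β'.vec = 0 := by rw [sc_dot_comm]; exact hu
  unfold refl
  rw [hβ'', sc_dot_sub_left, sc_dot_smul_left, hdot, hu', sc_dot_add_right, hu']
  funext k
  simp only [Pi.sub_apply, Pi.smul_apply, Pi.add_apply, smul_eq_mul]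
  ring

/-- two simultaneous switches `β, β'` with `β·β' = -1` such that `β'` vanishes on the framed face merge into the single
switch `β + β'`. -/
theorem s34f_merge (lam xi : Vec n) (θ : Shape n) (hθ : ∀ v ∈ θ, Dom v) (w0 : WD n)
    (l₁ l₂ : List (ℝ × RootD n)) (τ : ℝ) (β β' β'' : RootD n)
    (hs : IsSchedule lam θ xi w0 (l₁ ++ (τ, β) :: (τ, β') :: l₂))
    (hdot : dot β.vec β'.vec = -1) (hβ'' : β''.vec = β.vec + β'.vec)
    (hface : ∀ x, InFace θ.sum x → dot β'.vec ((runSw θ ⟨w0.act, lam⟩ l₁).frame x) = 0) :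
    IsSchedule lam θ xi w0 (l₁ ++ (τ, β'') :: l₂) := by
  set S := runSw θ ⟨w0.act, lam⟩ l₁ with hS
  have hη : dot β'.vec (S.frame (θ.val τ)) = 0 := hface _ (sc_inFace_val θ hθ τ)
  have hμ : dot β'.vec (S.frame θ.sum) = 0 := hface _ (sc_inFace_sum _)
  -- the three coefficients agree
  have hm' : (S.step θ τ β).coeff θ τ β' = S.coeff θ τ β := by
    show - dot β'.vec (refl β (S.frame (θ.val τ))) = - dot β.vec (S.frame (θ.val τ))
    unfold refl
    rw [sc_dot_sub_right, sc_dot_smul_right, hη, sc_dot_comm β'.vec β.vec, hdot,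
      sc_dot_comm (S.frame (θ.val τ)) β.vec]
    ring
  have hm'' : S.coeff θ τ β'' = S.coeff θ τ β := by
    show - dot β''.vec (S.frame (θ.val τ)) = - dot β.vec (S.frame (θ.val τ))
    rw [hβ'', sc_dot_add_left, hη, add_zero]
  have hFE : FrameEq θ ((S.step θ τ β).step θ τ β') (S.step θ τ β'') := by
    refine ⟨?_, ?_⟩
    · show S.c - S.coeff θ τ β • β.vec - (S.step θ τ β).coeff θ τ β' • β'.vec
        = S.c - S.coeff θ τ β'' • β''.vec
      rw [hm', hm'', hβ'', smul_add]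
      abel
    · intro x hx
      exact s34fi_refl_two β β' β'' hdot hβ'' _ (hface x hx)
  have hv := hs.valid
  rw [sc_valid_append] at hv
  obtain ⟨hv1, hg, ht, hg', ht', hv2⟩ := hv
  refine ⟨?_, ?_, ?_, ?_⟩
  · intro p hp
    rcases List.mem_append.1 hp with hp | hp
    · exact hs.times_mem p (List.mem_append_left _ hp)
    · rcases List.mem_cons.1 hp with rfl | hp
      · exact hs.times_mem (τ, β) (List.mem_append_right _ (List.mem_cons_self ..))
      · exact hs.times_mem p (List.mem_append_right _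
          (List.mem_cons_of_mem _ (List.mem_cons_of_mem _ hp)))
  · have hsort := hs.sorted
    rw [List.pairwise_append, List.pairwise_cons, List.pairwise_cons] at hsort
    obtain ⟨s1, ⟨s2, s3, s4⟩, s5⟩ := hsort
    rw [List.pairwise_append, List.pairwise_cons]
    refine ⟨s1, ⟨fun q hq => s3 q hq, s4⟩, ?_⟩
    intro a ha b hb
    rcases List.mem_cons.1 hb with rfl | hb
    · exact s5 a ha (τ, β) (List.mem_cons_self ..)
    · exact s5 a ha b (List.mem_cons_of_mem _ (List.mem_cons_of_mem _ hb))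
  · rw [sc_valid_append]
    refine ⟨hv1, ?_, ?_, ?_⟩
    · show 0 ≤ dot (S.pos θ τ) β''.vec
      have e1 : 0 ≤ dot (S.pos θ τ) β.vec := hg
      have e2 : 0 ≤ dot ((S.step θ τ β).pos θ τ) β'.vec := hg'
      rw [sc_pos_step] at e2
      rw [hβ'', sc_dot_add_right]
      linarith
    · show 0 ≤ - dot β''.vec (S.frame θ.sum)
      have e1 : 0 ≤ - dot β.vec (S.frame θ.sum) := ht
      rw [hβ'', sc_dot_add_left, hμ, add_zero]
      exact e1
    · exact (sc_frameEq_valid θ hθ _ _ hFE l₂).1 hv2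
  · obtain ⟨w, hw⟩ := hs.endpoint
    refine ⟨w, ?_⟩
    rw [sc_runSw_append] at hw ⊢
    rw [← hw]
    exact (sc_frameEq_pos θ hθ _ _ (sc_frameEq_run θ hθ _ _ hFE l₂) _).symm

end Claimed.Agent.R282
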