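import Claimed.Agent.R282.S34.Lat.Exc
import Claimed.Agent.R282.S34.Lat.Rel
import Claimed.Agent.R282.S34.F.Ins

/-!
# Row 282, package F: short schedules are strict, half-integral, and their simultaneous switches are orthogonal
(architect helper134)

Standing hypotheses: `Lbl lam θ xi`, `GenericShape θ`, `Hard lam θ xi`.
`s34f_hard_data` (glue, proved): every schedule with at most `n` switches has exactly `n` independent roots, is strict and has half-integral coefficients.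
`s34f_knot_orth`: two simultaneous switches of such a schedule have orthogonal roots  (this is the "matching lemma" on physical axes; also used by package H).

All proved (helper134); no open leaf in this file.

PLANS.  Adjacent pair `(τ,β), (τ,β')`; `S := runSw θ ⟨w0.act, lam⟩ l₁`, `f := S.frame` (a frame: `sc_isFrame_runSw`), `η = θ.val τ`, `0 < τ < T`.
 `m = - β·f η`, `tot = - β·f μ > 0`;   `m' = - β'·s_β f η = - (s_β β')·f η`, `tot' = - (s_β β')·f μ > 0`,  `s_β β' = β' - (β·β') β` (`sc_dot_refl_left`).   `m, m'` are half-integral.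
 Root forms: for a root `δ`, `x ↦ δ·f x` is `x ↦ γ·x` for a root `γ` (`sc_frame_root`), so `GenericShape.single` applies to it.
 * `adj_not_pos` (`β·β' = 1`): the roots `β`, `δ := β' - β` (`s34f_root_sub`), `β'` give forms `A, D, A + D` with `A(μ) < 0`, `D(μ) < 0`, hence `(A+D)(μ) < 0`; all three are half-integral at `η`
    (`A(η) = -m`, `D(η) = -m'`).  `single` for `(A, A + D)`: equal or opposite on the face; evaluate at `μ` (`sc_inFace_sum`): `A(μ) = A(μ) + D(μ)` gives `D(μ) = 0`; `A(μ) = -(A(μ) + D(μ))` contradicts the signs.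
 * `adj_face` (`β·β' = -1`): forms `A` (root `β`), `A + A'` (root `β + β'`, `s34f_root_add`), both `< 0` at `μ` and half-integral at `η`; `single`: equal on the face (opposite is excluded at `μ`), so `A' = β'∘f` vanishes on the face.
 * `adj_ne_two`: `β·β' = 2` gives `β'.vec = β.vec` (`sc_vec_dot_vec_two`), `β·β' = -2` gives `β'.vec = - β.vec` (apply it to `β'.opp`, `sc_neg_vec`): both contradict `SwIndep` (two members of the family at distinct indices `l₁.length`, `l₁.length + 1`).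
 * `knot_orth`: prove by induction on `d`: for ALL schedules `(w0, l)` with `l.length ≤ n` and all `i`, `i + d + 1 < l.length`, `l[i].1 = l[i+d+1].1 → l[i] ⊥ l[i+d+1]`.
    `d = 0`: split `l = l₁ ++ l[i] :: l[i+1] :: l₂` and use `s34f_adj_orth`.  `d + 1`: by sortedness `l[i+d+1].1 = l[i+d+2].1`; they are orthogonal (case `0`); exchange them by `sc_comm_schedule`; in the new schedule (same length) the old `l[i+d+2]` has index `i+d+1`; induction hypothesis.
-/

set_option autoImplicit false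

namespace Claimed.Agent.R282

variable {n : ℕ}

/-- minimality of the exceptional schedules. -/
theorem s34f_min (lam xi : Vec n) (θ : Shape n) (H : Hard lam θ xi) (w0 : WD n)
    (l : List (ℝ × RootD n)) (hs : IsSchedule lam θ xi w0 l) (hlen : l.length ≤ n) :
    l.length = n ∧ ∀ w0' l', IsSchedule lam θ xi w0' l' → l.length ≤ l'.length := by
  obtain ⟨P, hP⟩ := H w0 l hs hlen
  refine ⟨hP.len, fun w0' l' hs' => ?_⟩
  by_contra hlt
  have hlt' : l'.length < l.length := not_le.1 hlt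
  obtain ⟨P', hP'⟩ := H w0' l' hs' (by omega)
  have := hP'.len
  have := hP.len
  omega

/-- every schedule with at most `n` switches is a strict half-integral basis schedule. -/
theorem s34f_hard_data (lam xi : Vec n) (θ : Shape n) (L : Lbl lam θ xi) (H : Hard lam θ xi)
    (w0 : WD n) (l : List (ℝ × RootD n)) (hs : IsSchedule lam θ xi w0 l) (hlen : l.length ≤ n) :
    l.length = n ∧ SwIndep l ∧ SwStrict θ ⟨w0.act, lam⟩ l ∧
      ∀ a ∈ swCoeffs θ ⟨w0.act, lam⟩ l, HalfInt a := by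
  obtain ⟨h1, h2⟩ := s34f_min lam xi θ H w0 l hs hlen
  obtain ⟨P, hP⟩ := H w0 l hs hlen
  refine ⟨h1, hP.indep, sc_strict_of_min lam xi θ L.dom w0 l hs h2, ?_⟩
  exact lat_coeff_half ⟨hP.indep, h1⟩ _ (sc_coeffs_length _ _ _)
    (sc_balance_mem_Q lam xi θ L w0 l hs).1

theorem s34f_root_add (β β' : RootD n) (h : dot β.vec β'.vec = -1) :
    ∃ δ : RootD n, δ.vec = β.vec + β'.vec := by
  refine ⟨reflRoot β β', ?_⟩
  rw [sc_reflRoot_vec]
  unfold refl
  rw [sc_dot_comm, h]
  funext k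
  simp only [Pi.sub_apply, Pi.smul_apply, Pi.add_apply, smul_eq_mul]
  ring

theorem s34f_root_sub (β β' : RootD n) (h : dot β.vec β'.vec = 1) :
    ∃ δ : RootD n, δ.vec = β'.vec - β.vec := by
  refine ⟨reflRoot β β', ?_⟩
  rw [sc_reflRoot_vec]
  unfold refl
  rw [sc_dot_comm, h, one_smul]

/-- two adjacent members of an independent list are independent -/
theorem s34fo_adj_indep (l₁ l₂ : List (ℝ × RootD n)) (p q : ℝ × RootD n)
    (hind : SwIndep (l₁ ++ p :: q :: l₂)) (a b : ℝ) (h : a • p.2.vec + b • q.2.vec = 0) :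
    a = 0 ∧ b = 0 := by
  have h1 : l₁.length < (l₁ ++ p :: q :: l₂).length := by
    simp only [List.length_append, List.length_cons]; omega
  have h2 : l₁.length + 1 < (l₁ ++ p :: q :: l₂).length := by
    simp only [List.length_append, List.length_cons]; omega
  set i₁ : Fin (l₁ ++ p :: q :: l₂).length := ⟨l₁.length, h1⟩ with hi₁
  set i₂ : Fin (l₁ ++ p :: q :: l₂).length := ⟨l₁.length + 1, h2⟩ with hi₂
  have hne : i₁ ≠ i₂ := by
    intro e
    have := congrArg Fin.val e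
    simp [hi₁, hi₂] at this
  have e1 : (l₁ ++ p :: q :: l₂).get i₁ = p := by
    simp [hi₁]
  have e2 : (l₁ ++ p :: q :: l₂).get i₂ = q := by
    simp [hi₂, List.getElem_append_right]
  have key := linearIndependent_iff'.1 hind {i₁, i₂} (fun i => if i = i₁ then a else b) (by
    rw [Finset.sum_pair hne, if_pos rfl, if_neg hne.symm, e1, e2]
    exact h)
  have k1 := key i₁ (by simp)
  have k2 := key i₂ (by simp)
  rw [if_pos rfl] at k1
  rw [if_neg hne.symm] at k2
  exact ⟨k1, k2⟩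

theorem s34f_adj_ne_two (l₁ l₂ : List (ℝ × RootD n)) (τ τ' : ℝ) (β β' : RootD n)
    (hind : SwIndep (l₁ ++ (τ, β) :: (τ', β') :: l₂)) :
    dot β.vec β'.vec ≠ 2 ∧ dot β.vec β'.vec ≠ -2 := by
  refine ⟨fun h => ?_, fun h => ?_⟩
  · have e := sc_vec_dot_vec_two β β' h
    have := (s34fo_adj_indep l₁ l₂ (τ, β) (τ', β') hind 1 (-1) (by
      show (1 : ℝ) • β.vec + (-1 : ℝ) • β'.vec = 0
      rw [e]; simp)).1
    norm_num at this
  · have e := sc_vec_dot_vec_two β β'.opp (by rw [sc_neg_vec, sc_dot_neg_right, h]; norm_num)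
    rw [sc_neg_vec] at e
    have := (s34fo_adj_indep l₁ l₂ (τ, β) (τ', β') hind 1 1 (by
      show (1 : ℝ) • β.vec + (1 : ℝ) • β'.vec = 0
      rw [← e]; simp)).1
    norm_num at this

theorem s34fo_halfInt_neg {x : ℝ} (h : HalfInt x) : HalfInt (-x) := by
  obtain ⟨z, hz⟩ := h
  exact ⟨-z, by push_cast; linarith⟩

theorem s34fo_halfInt_add {x y : ℝ} (hx : HalfInt x) (hy : HalfInt y) : HalfInt (x + y) := by
  obtain ⟨z, hz⟩ := hx
  obtain ⟨w, hw⟩ := hy
  exact ⟨z + w, by push_cast; linarith⟩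

/-- data of two adjacent simultaneous switches of a short schedule, in terms of the forms `δ ↦ δ·f x` -/
theorem s34fo_adj_data (lam xi : Vec n) (θ : Shape n) (L : Lbl lam θ xi)
    (H : Hard lam θ xi) (w0 : WD n) (l₁ l₂ : List (ℝ × RootD n)) (τ : ℝ) (β β' : RootD n)
    (hs : IsSchedule lam θ xi w0 (l₁ ++ (τ, β) :: (τ, β') :: l₂))
    (hlen : (l₁ ++ (τ, β) :: (τ, β') :: l₂).length ≤ n) :
    0 < τ ∧ τ < (θ.length : ℝ) ∧
      dot β.vec ((runSw θ ⟨w0.act, lam⟩ l₁).frame θ.sum) < 0 ∧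
      dot (refl β β'.vec) ((runSw θ ⟨w0.act, lam⟩ l₁).frame θ.sum) < 0 ∧
      HalfInt (dot β.vec ((runSw θ ⟨w0.act, lam⟩ l₁).frame (θ.val τ))) ∧
      HalfInt (dot (refl β β'.vec) ((runSw θ ⟨w0.act, lam⟩ l₁).frame (θ.val τ))) := by
  obtain ⟨-, -, hstrict, hhalf⟩ := s34f_hard_data lam xi θ L H w0 _ hs hlen
  set S := runSw θ ⟨w0.act, lam⟩ l₁ with hS
  have htots : swTotals θ ⟨w0.act, lam⟩ (l₁ ++ (τ, β) :: (τ, β') :: l₂)
      = swTotals θ ⟨w0.act, lam⟩ l₁ ++ S.total θ β :: (S.step θ τ β).total θ β' ::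
        swTotals θ ((S.step θ τ β).step θ τ β') l₂ := by
    rw [sc_totals_append]; rfl
  have hcoef : swCoeffs θ ⟨w0.act, lam⟩ (l₁ ++ (τ, β) :: (τ, β') :: l₂)
      = swCoeffs θ ⟨w0.act, lam⟩ l₁ ++ S.coeff θ τ β :: (S.step θ τ β).coeff θ τ β' ::
        swCoeffs θ ((S.step θ τ β).step θ τ β') l₂ := by
    rw [sc_coeffs_append]; rfl
  obtain ⟨ht, -, htot⟩ := hstrict
  have t0 := ht (τ, β) (by simp)
  have t1 : 0 < S.total θ β := htot _ (by rw [htots]; simp)
  have t2 : 0 < (S.step θ τ β).total θ β' := htot _ (by rw [htots]; simp)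
  have c1 : HalfInt (S.coeff θ τ β) := hhalf _ (by rw [hcoef]; simp)
  have c2 : HalfInt ((S.step θ τ β).coeff θ τ β') := hhalf _ (by rw [hcoef]; simp)
  have e : ∀ x, dot β'.vec (refl β (S.frame x)) = dot (refl β β'.vec) (S.frame x) := by
    intro x
    rw [sc_dot_refl_left]
  refine ⟨t0.1, t0.2, ?_, ?_, ?_, ?_⟩
  · have : 0 < - dot β.vec (S.frame θ.sum) := t1
    linarith
  · have : 0 < - dot β'.vec (refl β (S.frame θ.sum)) := t2
    rw [e] at this
    linarith
  · have : HalfInt (- dot β.vec (S.frame (θ.val τ))) := c1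
    simpa using s34fo_halfInt_neg this
  · have : HalfInt (- dot β'.vec (refl β (S.frame (θ.val τ)))) := c2
    rw [e] at this
    simpa using s34fo_halfInt_neg this

/-- two root forms, negative at `μ` and half-integral at an interior time, agree on the face -/
theorem s34fo_forms_eq (θ : Shape n) (G : GenericShape θ) (f : Vec n → Vec n) (hf : IsFrame f)
    (τ : ℝ) (h0 : 0 < τ) (h1 : τ < (θ.length : ℝ)) (δ ε : RootD n)
    (hδ : dot δ.vec (f θ.sum) < 0) (hε : dot ε.vec (f θ.sum) < 0)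
    (hδ' : HalfInt (dot δ.vec (f (θ.val τ)))) (hε' : HalfInt (dot ε.vec (f (θ.val τ)))) :
    ∀ x, InFace θ.sum x → dot δ.vec (f x) = dot ε.vec (f x) := by
  obtain ⟨γ, hγ⟩ := sc_frame_root f hf δ
  obtain ⟨γ', hγ'⟩ := sc_frame_root f hf ε
  rw [hγ] at hδ hδ'
  rw [hγ'] at hε hε'
  rcases G.single τ h0 h1 γ γ' hδ.ne hε.ne hδ' hε' with h | h
  · intro x hx
    rw [hγ, hγ']
    exact h x hx
  · exfalso
    have := h _ (sc_inFace_sum θ.sum)
    linarith

theorem s34f_adj_not_pos (lam xi : Vec n) (θ : Shape n) (L : Lbl lam θ xi) (G : GenericShape θ)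
    (H : Hard lam θ xi) (w0 : WD n) (l₁ l₂ : List (ℝ × RootD n)) (τ : ℝ) (β β' : RootD n)
    (hs : IsSchedule lam θ xi w0 (l₁ ++ (τ, β) :: (τ, β') :: l₂))
    (hlen : (l₁ ++ (τ, β) :: (τ, β') :: l₂).length ≤ n) : dot β.vec β'.vec ≠ 1 := by
  intro hdot
  obtain ⟨h0, h1, a1, a2, b1, b2⟩ := s34fo_adj_data lam xi θ L H w0 l₁ l₂ τ β β' hs hlen
  have hf : IsFrame (runSw θ ⟨w0.act, lam⟩ l₁).frame := sc_isFrame_runSw θ _ (sc_isFrame_act w0) l₁
  set f := (runSw θ ⟨w0.act, lam⟩ l₁).frame with hfdef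
  have er : refl β β'.vec = β'.vec - β.vec := by
    unfold refl
    rw [sc_dot_comm, hdot, one_smul]
  rw [er, sc_dot_sub_left] at a2 b2
  have a3 : dot β'.vec (f θ.sum) < 0 := by linarith
  have b3 : HalfInt (dot β'.vec (f (θ.val τ))) := by
    have := s34fo_halfInt_add b1 b2
    simpa using this
  have := s34fo_forms_eq θ G f hf τ h0 h1 β β' a1 a3 b1 b3 _ (sc_inFace_sum θ.sum)
  linarith

theorem s34f_adj_face (lam xi : Vec n) (θ : Shape n) (L : Lbl lam θ xi) (G : GenericShape θ)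
    (H : Hard lam θ xi) (w0 : WD n) (l₁ l₂ : List (ℝ × RootD n)) (τ : ℝ) (β β' : RootD n)
    (hs : IsSchedule lam θ xi w0 (l₁ ++ (τ, β) :: (τ, β') :: l₂))
    (hlen : (l₁ ++ (τ, β) :: (τ, β') :: l₂).length ≤ n) (hdot : dot β.vec β'.vec = -1) :
    ∀ x, InFace θ.sum x → dot β'.vec ((runSw θ ⟨w0.act, lam⟩ l₁).frame x) = 0 := by
  obtain ⟨h0, h1, a1, a2, b1, b2⟩ := s34fo_adj_data lam xi θ L H w0 l₁ l₂ τ β β' hs hlen
  have hf : IsFrame (runSw θ ⟨w0.act, lam⟩ l₁).frame := sc_isFrame_runSw θ _ (sc_isFrame_act w0) l₁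
  set f := (runSw θ ⟨w0.act, lam⟩ l₁).frame with hfdef
  obtain ⟨δ, hδ⟩ := s34f_root_add β β' hdot
  have er : refl β β'.vec = δ.vec := by
    rw [hδ]
    unfold refl
    rw [sc_dot_comm, hdot]
    funext k
    simp only [Pi.sub_apply, Pi.smul_apply, Pi.add_apply, smul_eq_mul]
    ring
  rw [er] at a2 b2
  intro x hx
  have := s34fo_forms_eq θ G f hf τ h0 h1 β δ a1 a2 b1 b2 x hx
  rw [hδ, sc_dot_add_left] at this
  linarith

/-- adjacent simultaneous switches are orthogonal (glue). -/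
theorem s34f_adj_orth (lam xi : Vec n) (θ : Shape n) (L : Lbl lam θ xi) (G : GenericShape θ)
    (H : Hard lam θ xi) (w0 : WD n) (l₁ l₂ : List (ℝ × RootD n)) (τ : ℝ) (β β' : RootD n)
    (hs : IsSchedule lam θ xi w0 (l₁ ++ (τ, β) :: (τ, β') :: l₂))
    (hlen : (l₁ ++ (τ, β) :: (τ, β') :: l₂).length ≤ n) : dot β.vec β'.vec = 0 := by
  obtain ⟨h1, hind, -, -⟩ := s34f_hard_data lam xi θ L H w0 _ hs hlen
  obtain ⟨z, hz, hz1, hz2⟩ := sc_vec_dot_vec_int β β'
  obtain ⟨hne2, hne2'⟩ := s34f_adj_ne_two l₁ l₂ τ τ β β' hind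
  have hne1 := s34f_adj_not_pos lam xi θ L G H w0 l₁ l₂ τ β β' hs hlen
  have hne1' : dot β.vec β'.vec ≠ -1 := by
    intro hdot
    obtain ⟨β'', hβ''⟩ := s34f_root_add β β' hdot
    have hs' := s34f_merge lam xi θ L.dom w0 l₁ l₂ τ β β' β'' hs hdot hβ''
      (s34f_adj_face lam xi θ L G H w0 l₁ l₂ τ β β' hs hlen hdot)
    have h2 := (s34f_min lam xi θ H w0 _ hs hlen).2 _ _ hs'
    simp only [List.length_append, List.length_cons] at h2
    omega
  rw [hz] at hne2 hne2' hne1 hne1' ⊢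
  have c1 : z ≠ 2 := fun h => hne2 (by rw [h]; norm_num)
  have c2 : z ≠ -2 := fun h => hne2' (by rw [h]; norm_num)
  have c3 : z ≠ 1 := fun h => hne1 (by rw [h]; norm_num)
  have c4 : z ≠ -1 := fun h => hne1' (by rw [h]; norm_num)
  have : z = 0 := by omega
  rw [this]
  norm_num

theorem s34fo_pairwise_of_split {α : Type*} (R : α → α → Prop) (l : List α)
    (h : ∀ l₁ mid l₂ p q, l = l₁ ++ p :: (mid ++ q :: l₂) → R p q) : l.Pairwise R := by
  induction l with
  | nil => exact List.Pairwise.nil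
  | cons a l ih =>
    rw [List.pairwise_cons]
    refine ⟨?_, ?_⟩
    · intro b hb
      obtain ⟨s, t, rfl⟩ := List.append_of_mem hb
      exact h [] s t a b rfl
    · refine ih ?_
      intro l₁ mid l₂ p q e
      exact h (a :: l₁) mid l₂ p q (by rw [e]; rfl)

theorem s34fo_far_orth (lam xi : Vec n) (θ : Shape n) (L : Lbl lam θ xi) (G : GenericShape θ)
    (H : Hard lam θ xi) (mid : List (ℝ × RootD n)) :
    ∀ (w0 : WD n) (l₁ l₂ : List (ℝ × RootD n)) (p q : ℝ × RootD n),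
      IsSchedule lam θ xi w0 (l₁ ++ p :: (mid ++ q :: l₂)) →
      (l₁ ++ p :: (mid ++ q :: l₂)).length ≤ n → p.1 = q.1 → dot p.2.vec q.2.vec = 0 := by
  induction mid using List.reverseRecOn with
  | nil =>
    intro w0 l₁ l₂ p q hs hlen hpq
    obtain ⟨tp, β⟩ := p
    obtain ⟨tq, β'⟩ := q
    simp only at hpq
    subst hpq
    exact s34f_adj_orth lam xi θ L G H w0 l₁ l₂ tp β β' hs hlen
  | append_singleton mid r ih =>
    intro w0 l₁ l₂ p q hs hlen hpq
    have e : l₁ ++ p :: ((mid ++ [r]) ++ q :: l₂) = (l₁ ++ p :: mid) ++ r :: q :: l₂ := by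
      simp [List.append_assoc]
    rw [e] at hs hlen
    have hsort := hs.sorted
    rw [List.pairwise_append, List.pairwise_cons] at hsort
    have s1 : p.1 ≤ r.1 := hsort.2.2 p (by simp) r (by simp)
    have s2 : r.1 ≤ q.1 := hsort.2.1.1 q (by simp)
    have hrq : r.1 = q.1 := le_antisymm s2 (by rw [← hpq]; exact s1)
    obtain ⟨tr, γ⟩ := r
    obtain ⟨tq, γ'⟩ := q
    simp only at hrq hpq
    subst hrq
    have horth := s34f_adj_orth lam xi θ L G H w0 (l₁ ++ p :: mid) l₂ tr γ γ' hs hlen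
    have hs' := sc_comm_schedule lam xi θ w0 (l₁ ++ p :: mid) l₂ tr γ γ' horth hs
    have e' : (l₁ ++ p :: mid) ++ (tr, γ') :: (tr, γ) :: l₂
        = l₁ ++ p :: (mid ++ (tr, γ') :: ((tr, γ) :: l₂)) := by
      simp [List.append_assoc]
    rw [e'] at hs'
    refine ih w0 l₁ ((tr, γ) :: l₂) p (tr, γ') hs' ?_ hpq
    rw [← e']
    simpa using hlen

/-- **simultaneous switches of a short schedule are orthogonal.** -/
theorem s34f_knot_orth (lam xi : Vec n) (θ : Shape n) (L : Lbl lam θ xi) (G : GenericShape θ)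
    (H : Hard lam θ xi) (w0 : WD n) (l : List (ℝ × RootD n)) (hs : IsSchedule lam θ xi w0 l)
    (hlen : l.length ≤ n) :
    l.Pairwise (fun p q => p.1 = q.1 → dot p.2.vec q.2.vec = 0) := by
  refine s34fo_pairwise_of_split _ l ?_
  intro l₁ mid l₂ p q e
  subst e
  exact s34fo_far_orth lam xi θ L G H mid w0 l₁ l₂ p q hs hlen

end Claimed.Agent.R282
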