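import Claimed.Agent.R282.S34.F.Base
import Claimed.Agent.R282.S34.F.Orth

/-!
# Row 282, package F: the direct links (Lemma 3.7 (i), (ii), (iii))      (architect helper134)

All three statements are GLUE (proved here) from `S34/Lat` (package B), `F/Ins`, `F/Orth`, `F/Base` and the schedule calculus.
No `sorry` in this file.
-/

set_option autoImplicit false

namespace Claimed.Agent.R282

variable {n : ℕ}

theorem s34f_halfInt_int (z : ℤ) : HalfInt (z : ℝ) := ⟨2 * z, by push_cast; ring⟩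

theorem s34f_halfInt_neg {x : ℝ} (h : HalfInt x) : HalfInt (-x) := by
  obtain ⟨z, hz⟩ := h
  exact ⟨-z, by push_cast; linarith⟩

theorem s34f_halfInt_sub {x y : ℝ} (hx : HalfInt x) (hy : HalfInt y) : HalfInt (x - y) := by
  obtain ⟨z, hz⟩ := hx
  obtain ⟨w, hw⟩ := hy
  exact ⟨z - w, by push_cast; linarith⟩

theorem s34f_halfInt_add {x y : ℝ} (hx : HalfInt x) (hy : HalfInt y) : HalfInt (x + y) := by
  obtain ⟨z, hz⟩ := hx
  obtain ⟨w, hw⟩ := hy
  exact ⟨z + w, by push_cast; linarith⟩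

theorem s34f_halfInt_mul_int {x : ℝ} (hx : HalfInt x) (k : ℤ) : HalfInt (x * k) := by
  obtain ⟨z, hz⟩ := hx
  exact ⟨z * k, by push_cast; rw [← hz]; ring⟩

/-- `∑ m_i β_i·β` is half-integral (`sc_relSum_cons`, `sc_vec_dot_vec_int`; induction on `m`, `l`). -/
theorem s34f_halfInt_dot_relSum (m : List ℝ) (l : List (ℝ × RootD n)) (hm : ∀ a ∈ m, HalfInt a)
    (β : RootD n) : HalfInt (dot (relSum m l) β.vec) := by
  induction m generalizing l with
  | nil =>
    have : relSum ([] : List ℝ) l = 0 := by simp [relSum]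
    rw [this, sc_dot_zero_left]
    exact ⟨0, by simp⟩
  | cons a m ih =>
    cases l with
    | nil =>
      have : relSum (a :: m) ([] : List (ℝ × RootD n)) = 0 := by simp [relSum]
      rw [this, sc_dot_zero_left]
      exact ⟨0, by simp⟩
    | cons p l =>
      rw [sc_relSum_cons, sc_dot_add_left, sc_dot_smul_left]
      obtain ⟨z, hz, -, -⟩ := sc_vec_dot_vec_int p.2 β
      rw [hz]
      exact s34f_halfInt_add (s34f_halfInt_mul_int (hm a (List.mem_cons_self ..)) z)
        (ih l (fun b hb => hm b (List.mem_cons_of_mem _ hb)))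

/-- (`sc_gaps_append`, `sc_totals_append`, `List.mem_append`.) -/
theorem s34f_strict_append (θ : Shape n) (S : SwState n) (l₁ l₂ : List (ℝ × RootD n)) :
    SwStrict θ S (l₁ ++ l₂) ↔ SwStrict θ S l₁ ∧ SwStrict θ (runSw θ S l₁) l₂ := by
  unfold SwStrict
  rw [sc_gaps_append, sc_totals_append]
  simp only [List.mem_append, or_imp, forall_and]
  tauto

theorem s34f_mem_mapSw {g : WB n} {l : List (ℝ × RootD n)} {p : ℝ × RootD n} (h : p ∈ mapSw g l) :
    ∃ q ∈ l, q.1 = p.1 := by
  unfold mapSw at h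
  obtain ⟨q, hq, rfl⟩ := List.mem_map.1 h
  exact ⟨q, hq, rfl⟩

/-- (`sc_equiv_gaps`, `sc_equiv_totals`; `mapSw` does not change the times.) -/
theorem s34f_strict_mapSw (θ : Shape n) (g : WB n) (S : SwState n) (l : List (ℝ × RootD n))
    (h : SwStrict θ S l) : SwStrict θ (S.mapB g) (mapSw g l) := by
  unfold SwStrict at h ⊢
  rw [sc_equiv_gaps, sc_equiv_totals]
  refine ⟨fun p hp => ?_, h.2.1, h.2.2⟩
  obtain ⟨q, hq, hqp⟩ := s34f_mem_mapSw hp
  rw [← hqp]
  exact h.1 q hq

/-- (`List.pairwise_append`, `List.pairwise_map`, `sc_map_vec`, `sc_dot_WB_act`.) -/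
theorem s34f_orth_mapSw (g : WB n) (l₁ l₂ : List (ℝ × RootD n)) (t : ℝ) (h₁ : ∀ p ∈ l₁, p.1 < t)
    (h₂ : ∀ p ∈ l₂, t ≤ p.1)
    (h : (l₁ ++ l₂).Pairwise (fun p q => p.1 = q.1 → dot p.2.vec q.2.vec = 0)) :
    (l₁ ++ mapSw g l₂).Pairwise (fun p q => p.1 = q.1 → dot p.2.vec q.2.vec = 0) := by
  rw [List.pairwise_append] at h ⊢
  refine ⟨h.1, ?_, ?_⟩
  · unfold mapSw
    rw [List.pairwise_map]
    refine h.2.1.imp ?_
    intro a b hab e
    show dot (a.2.map g).vec (b.2.map g).vec = 0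
    rw [sc_map_vec, sc_map_vec, sc_dot_WB_act]
    exact hab e
  · intro a ha b hb e
    obtain ⟨q, hq, hqb⟩ := s34f_mem_mapSw hb
    have := h₁ a ha
    have := h₂ q hq
    rw [hqb] at this
    linarith

theorem s34f_strict_nil (θ : Shape n) (S : SwState n) : SwStrict θ S [] := by
  refine ⟨?_, ?_, ?_⟩ <;> intro a ha <;> simp [swGaps, swTotals] at ha

/-- Lemma 3.7 (i): strict concordant orders at time zero. -/
theorem s34f_link_start (lam xi : Vec n) (θ : Shape n) (w0 : WD n) (l : List (ℝ × RootD n))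
    (P : Finset (Fin n)) (X : ExcCtx lam θ xi w0 l P) (β : RootD n) (hβ : β.i ∈ P ↔ β.j ∉ P)
    (hg : 0 < dot lam β.vec) (ht : 0 < dot (w0.act θ.sum) β.vec) : False := by
  obtain ⟨hlen, hind, hstrict, hhalf⟩ :=
    s34f_hard_data lam xi θ X.lbl X.hard w0 l X.sched X.exc.len.le
  obtain ⟨w0', hstep, hs', hc, hgap, htot⟩ := s34f_ins_zero lam xi θ w0 l X.sched β hg.le ht.le
  have hstep' : (runSw θ ⟨w0'.act, lam⟩ []).step θ 0 β = ⟨w0.act, lam⟩ := hstep
  have D : InsData lam θ xi w0' [] l 0 β :=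
    { sched := hs'
      len := by simpa using hlen
      gen := lat_exc_join_cons ⟨hind, hlen⟩ X.exc.connP X.exc.connQ 0 β hβ
      strict₁ := s34f_strict_nil _ _
      strict₂ := by rw [hstep']; exact hstrict
      half₁ := by intro a ha; simp [swCoeffs] at ha
      half₀ := by
        show HalfInt ((⟨w0'.act, lam⟩ : SwState n).coeff θ 0 β)
        rw [hc]
        exact ⟨0, by simp⟩
      half₂ := by rw [hstep']; exact hhalf
      tot := by
        show 0 < (⟨w0'.act, lam⟩ : SwState n).total θ β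
        rw [htot]; exact ht
      alone := fun p hp h => absurd h (hstrict.1 p (by simpa using hp)).1.ne'
      orth := s34f_knot_orth lam xi θ X.lbl X.gen X.hard w0 l X.sched X.exc.len.le }
  refine X.noLink (s34f_link_of_ins lam xi θ X.lbl X.gen w0' [] l 0 β D (Or.inl ⟨rfl, ?_, hind⟩))
  show 0 < (⟨w0'.act, lam⟩ : SwState n).gap θ 0 β
  rw [hgap]; exact hg

/-- Lemma 3.7 (ii): strict discordant orders at time `T`. -/
theorem s34f_link_end (lam xi : Vec n) (θ : Shape n) (w0 : WD n) (l : List (ℝ × RootD n))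
    (P : Finset (Fin n)) (X : ExcCtx lam θ xi w0 l P) (β : RootD n) (hβ : β.i ∈ P ↔ β.j ∉ P)
    (hg : 0 < (runSw θ ⟨w0.act, lam⟩ l).gap θ θ.length β)
    (ht : 0 < (runSw θ ⟨w0.act, lam⟩ l).total θ β) : False := by
  obtain ⟨hlen, hind, hstrict, hhalf⟩ :=
    s34f_hard_data lam xi θ X.lbl X.hard w0 l X.sched X.exc.len.le
  have hs' := s34f_ins_end lam xi θ w0 l X.sched β hg.le ht.le
  have D : InsData lam θ xi w0 l [] θ.length β :=
    { sched := hs'
      len := by simpa using hlen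
      gen := lat_genQ_insert (_, β) l [] (by
        rw [List.append_nil]
        exact lat_exc_join_cons ⟨hind, hlen⟩ X.exc.connP X.exc.connQ _ β hβ)
      strict₁ := hstrict
      strict₂ := s34f_strict_nil _ _
      half₁ := hhalf
      half₀ := by
        rw [sc_coeff_length]
        obtain ⟨w, hw⟩ := sc_isFrame_runSw θ ⟨w0.act, lam⟩ (sc_isFrame_act w0) l
        obtain ⟨z, hz⟩ := sc_wt_dot_root _ (sc_isWtD_act w θ.sum X.lbl.wm) β
        unfold SwState.total
        rw [hw, sc_dot_comm, hz]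
        exact s34f_halfInt_neg (s34f_halfInt_int z)
      half₂ := by intro a ha; simp [swCoeffs] at ha
      tot := ht
      alone := fun p hp h => absurd h (hstrict.1 p (by simpa using hp)).2.ne
      orth := by
        rw [List.append_nil]
        exact s34f_knot_orth lam xi θ X.lbl X.gen X.hard w0 l X.sched X.exc.len.le }
  exact X.noLink (s34f_link_of_ins lam xi θ X.lbl X.gen w0 l [] _ β D
    (Or.inr (Or.inl ⟨rfl, hg, by rw [List.append_nil]; exact hind⟩)))

/-- Lemma 3.7 (iii), (iv): a position crossing with distinct moving values at an interior time `t`; the switches at the time `t`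
(if any) come after the crossing and are orthogonal to it. -/
theorem s34f_link_cross_gen (lam xi : Vec n) (θ : Shape n) (w0 : WD n) (l : List (ℝ × RootD n))
    (P : Finset (Fin n)) (X : ExcCtx lam θ xi w0 l P) (β : RootD n) (hβ : β.i ∈ P ↔ β.j ∉ P)
    (k : ℕ) (t : ℝ) (h₁ : ∀ p ∈ l.take k, p.1 < t) (h₂ : ∀ p ∈ l.drop k, t ≤ p.1)
    (h₃ : ∀ p ∈ l.drop k, p.1 = t → dot p.2.vec β.vec = 0) (h0 : 0 < t)
    (h1 : t < (θ.length : ℝ)) (hg : (stAt θ ⟨w0.act, lam⟩ l k).gap θ t β = 0)
    (ht : 0 < (stAt θ ⟨w0.act, lam⟩ l k).total θ β) : False := by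
  obtain ⟨hlen, hind, hstrict, hhalf⟩ :=
    s34f_hard_data lam xi θ X.lbl X.hard w0 l X.sched X.exc.len.le
  have horth := s34f_knot_orth lam xi θ X.lbl X.gen X.hard w0 l X.sched X.exc.len.le
  have hsched := X.sched
  have hP := X.exc.connP
  have hQ := X.exc.connQ
  have hg' : (runSw θ ⟨w0.act, lam⟩ (l.take k)).gap θ t β = 0 := hg
  have ht' : 0 < (runSw θ ⟨w0.act, lam⟩ (l.take k)).total θ β := ht
  have hl : l.take k ++ l.drop k = l := List.take_append_drop k l
  generalize l.take k = l₁ at *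
  generalize l.drop k = l₂ at *
  subst hl
  obtain ⟨hs', hstep⟩ := s34f_ins_zero_gap lam xi θ w0 l₁ l₂ hsched t β h0.le h1.le
    (fun p hp => (h₁ p hp).le) h₂ hg' ht'.le
  rw [s34f_strict_append] at hstrict
  rw [sc_coeffs_append] at hhalf
  have D : InsData lam θ xi w0 l₁ (mapSw (WB.ofRoot β) l₂) t β :=
    { sched := hs'
      len := by
        rw [List.length_append] at hlen
        unfold mapSw
        rw [List.length_map]
        exact hlen
      gen := lat_genQ_insert_refl (t, β) l₁ l₂ (lat_exc_join_cons ⟨hind, hlen⟩ hP hQ t β hβ)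
      strict₁ := hstrict.1
      strict₂ := by rw [hstep]; exact s34f_strict_mapSw θ _ _ _ hstrict.2
      half₁ := fun a ha => hhalf a (List.mem_append_left _ ha)
      half₀ := by
        have e := sc_gap_eq θ (runSw θ ⟨w0.act, lam⟩ l₁) t β
        rw [hg', sc_runSw_c, sc_dot_sub_left] at e
        have e' : (runSw θ ⟨w0.act, lam⟩ l₁).coeff θ t β = dot lam β.vec -
            dot (relSum (swCoeffs θ ⟨w0.act, lam⟩ l₁) l₁) β.vec := by linarith
        rw [e']
        obtain ⟨z, hz⟩ := sc_wt_dot_root lam X.lbl.wl β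
        rw [hz]
        exact s34f_halfInt_sub (s34f_halfInt_int z) (s34f_halfInt_dot_relSum _ _
          (fun a ha => hhalf a (List.mem_append_left _ ha)) β)
      half₂ := by
        rw [hstep, sc_equiv_coeffs]
        exact fun a ha => hhalf a (List.mem_append_right _ ha)
      tot := ht'
      alone := by
        intro p hp hpt
        rcases List.mem_append.1 hp with hp | hp
        · exact absurd hpt (h₁ p hp).ne
        · unfold mapSw at hp
          obtain ⟨q, hq, rfl⟩ := List.mem_map.1 hp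
          show dot (q.2.map (WB.ofRoot β)).vec β.vec = 0
          rw [sc_map_vec, sc_ofRoot_act, sc_dot_refl_left, sc_refl_self, sc_dot_neg_right,
            h₃ q hq hpt, neg_zero]
      orth := s34f_orth_mapSw _ l₁ l₂ t h₁ h₂ horth }
  exact X.noLink (s34f_link_of_ins lam xi θ X.lbl X.gen w0 l₁ _ t β D
    (Or.inr (Or.inr ⟨h0, h1, hg'⟩)))

/-- Lemma 3.7 (iii): a position crossing with distinct moving values strictly between the switch times. -/
theorem s34f_link_cross (lam xi : Vec n) (θ : Shape n) (w0 : WD n) (l : List (ℝ × RootD n))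
    (P : Finset (Fin n)) (X : ExcCtx lam θ xi w0 l P) (β : RootD n) (hβ : β.i ∈ P ↔ β.j ∉ P)
    (k : ℕ) (t : ℝ) (h₁ : ∀ p ∈ l.take k, p.1 < t) (h₂ : ∀ p ∈ l.drop k, t < p.1) (h0 : 0 < t)
    (h1 : t < (θ.length : ℝ)) (hg : (stAt θ ⟨w0.act, lam⟩ l k).gap θ t β = 0)
    (ht : 0 < (stAt θ ⟨w0.act, lam⟩ l k).total θ β) : False :=
  s34f_link_cross_gen lam xi θ w0 l P X β hβ k t h₁ (fun p hp => (h₂ p hp).le)
    (fun p hp h => absurd h (h₂ p hp).ne') h0 h1 hg ht

end Claimed.Agent.R282
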